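import Vale.Agent.Lib.P034.helper3.Graded

/-!
# P034: the two expectation thresholds of containment of any graph, dense and sparse ranges

Let `H` be any graph with at least one edge on `n` labelled vertices, `X` the set of the pairs of
distinct vertices and `F` the family of all `W ⊆ X` such that the graph with edge set `W` contains
a copy of `H`. Then `F` is a nonempty increasing family not containing the empty set, and

* for every integer `k ≥ 1` and real `M ≥ 1` with `log n ≤ M ^ k` and every `t ≥ 0` with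
  `3 log n ≤ n * t ^ k`: `q_f(F) ≤ 480 M ^ 2 * max (q(F)) t`; in particular
  `q_f(F) ≤ 480 M ^ 2 * q(F)` as soon as `3 log n ≤ n * q(F) ^ k`;
* if `log n ≤ 2 ^ k`, `9 (log n) ^ 2 ≤ n` and some vertex set `A` contains both ends of each edge
  of a set of at least `2 k (|A| + 1)` edges of `H`, then `q_f(F) ≤ 1920 q(F)`;
* `q_f(F) ≤ 10 ^ 123 * exp (118 * n * q_f(F)) * q(F)`.
-/

namespace Vale.Agent.Results.P034.AllGraphsRegimes

open Vale.Agent.Lib.P034

theorem result : ∀ (n : ℕ) (H : SimpleGraph (Fin n)), H ≠ ⊥ →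
    ∀ F : Finset (Finset {e : Sym2 (Fin n) // ¬ e.IsDiag}),
      (∀ W : Finset {e : Sym2 (Fin n) // ¬ e.IsDiag}, W ∈ F ↔
        SimpleGraph.IsContained H (SimpleGraph.fromEdgeSet
          (Subtype.val '' (W : Set {e : Sym2 (Fin n) // ¬ e.IsDiag})))) →
      (F.Nonempty ∧ ∅ ∉ F ∧ IsIncreasing F) ∧
      (∀ (k : ℕ) (M : ℝ), 1 ≤ k → 1 ≤ M → Real.log n ≤ M ^ k →
        (∀ t : ℝ, 0 ≤ t → 3 * Real.log n ≤ n * t ^ k →
          fracExpThreshold F ≤ 480 * M ^ 2 * max (expThreshold F) t) ∧
        (3 * Real.log n ≤ n * expThreshold F ^ k →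
          fracExpThreshold F ≤ 480 * M ^ 2 * expThreshold F)) ∧
      (∀ k : ℕ, 1 ≤ k → Real.log n ≤ 2 ^ k → 9 * Real.log n ^ 2 ≤ n →
        ∀ (A : Finset (Fin n)) (D : Finset (Sym2 (Fin n))),
          (∀ e ∈ D, e ∈ H.edgeSet ∧ ∀ v ∈ e, v ∈ A) → 2 * k * (A.card + 1) ≤ D.card →
          fracExpThreshold F ≤ 1920 * expThreshold F) ∧
      fracExpThreshold F ≤
        10 ^ 123 * Real.exp (118 * n * fracExpThreshold F) * expThreshold F := by
  intro n H hne F hF
  have hn := H3R.two_le_of_ne_bot H hne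
  refine ⟨H3C.contain_family H hne F hF, ?_, ?_, H3R.allgraphs_thresholds hn H F hF⟩
  · intro k M hk1 hM hk
    refine ⟨fun t ht htk => H3G.graded_thresholds hn H F hF k hk1 M hM hk t ht htk, ?_⟩
    intro hq
    have h0 : 0 ≤ expThreshold F := Real.sSup_nonneg (fun p hp => hp.1)
    have h := H3G.graded_thresholds hn H F hF k hk1 M hM hk (expThreshold F) h0 hq
    rwa [max_self] at h
  · intro k hk1 hk hnlog A D hD hcard
    exact H3G.dense_thresholds hn H F hF k hk1 hk hnlog A D hD hcard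

end Vale.Agent.Results.P034.AllGraphsRegimes
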