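import Vale.Agent.Lib.P034.helper3.BdFinal

/-!
# P034: the fractional and the integral expectation thresholds of containment of a graph of
bounded degree

Let `H` be a graph with at least one edge on `n` labelled vertices in which every vertex has at
most `D` neighbours. Let `X` be the set of the `C(n,2)` edges of the complete graph on `[n]` and
let `F` be the family of all `W ⊆ X` such that the graph with edge set `W` contains a copy of
`H`. Then `F` is a nonempty increasing family not containing the empty set, every `p ≥ 0` at
which `F` has a fractional cover of cost at most `1/2` has `F` `(p / (162 * D))`-small, and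
`q_f(F) ≤ 162 * D * q(F)`.
-/

namespace Vale.Agent.Results.P034.BoundedDegreeContainment

open Vale.Agent.Lib.P034

theorem result : ∀ (n D : ℕ) (H : SimpleGraph (Fin n)), H ≠ ⊥ →
    (∀ v : Fin n, (H.neighborSet v).ncard ≤ D) →
    ∀ F : Finset (Finset {e : Sym2 (Fin n) // ¬ e.IsDiag}),
      (∀ W : Finset {e : Sym2 (Fin n) // ¬ e.IsDiag}, W ∈ F ↔
        SimpleGraph.IsContained H (SimpleGraph.fromEdgeSet
          (Subtype.val '' (W : Set {e : Sym2 (Fin n) // ¬ e.IsDiag})))) →
      (F.Nonempty ∧ ∅ ∉ F ∧ IsIncreasing F) ∧
      (∀ p : ℝ, 0 ≤ p → IsFracSmall F p → IsSmall F (p / (162 * D))) ∧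
      fracExpThreshold F ≤ 162 * D * expThreshold F := by
  intro n D H hne hdeg F hF
  exact ⟨H3C.contain_family H hne F hF,
    fun p hp h => H3B.bounded_small H hne D hdeg F hF p hp h,
    H3B.bounded_thresholds H hne D hdeg F hF⟩

end Vale.Agent.Results.P034.BoundedDegreeContainment
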