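import Vale.Agent.Lib.P034.helper3.Overlap

/-!
# P034: rounding fractional covers whose support has bounded degree

Let `g` be a fractional cover of a family `F` of subsets of a finite set `X`, of cost at most
`1/2` at `p`, and let `D ≥ 1` be an integer.

* If every set `S` of nonzero weight meets at most `D ^ |S|` sets of nonzero weight of its own
  size (`S` itself counted), then `F` is `(p / (2^70 * D^2))`-small.
* In particular this holds if, for every size `s`, every element of `X` lies in at most `D` sets
  of size `s` of nonzero weight.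

For `D = 1` the hypothesis says that distinct sets of nonzero weight of equal size are disjoint.
-/

namespace Vale.Agent.Results.P034.BoundedDegreeSupport

open Vale.Agent.Lib.P034

theorem result : ∀ (X : Type) [Fintype X] (F : Finset (Finset X)) (g : Finset X → ℝ) (p : ℝ)
    (D : ℕ), 0 ≤ p → 1 ≤ D → IsFracCover g F → fracCost g p ≤ 1 / 2 →
    ((∀ S : Finset X, g S ≠ 0 →
        {T : Finset X | g T ≠ 0 ∧ T.card = S.card ∧ ¬ Disjoint S T}.ncard ≤ D ^ S.card) →
      IsSmall F (p / (2 ^ 70 * (D : ℝ) ^ 2))) ∧
    ((∀ (s : ℕ) (x : X), {T : Finset X | g T ≠ 0 ∧ T.card = s ∧ x ∈ T}.ncard ≤ D) →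
      IsSmall F (p / (2 ^ 70 * (D : ℝ) ^ 2))) :=
  fun _ _ F g p D hp hD hg hc =>
    ⟨fun hov => H3O.overlap_small F g p D hp hD hg hc hov,
      fun hdeg => H3O.degree_small F g p D hp hD hg hc hdeg⟩

end Vale.Agent.Results.P034.BoundedDegreeSupport
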