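import Vale.Agent.Lib.P034.helper3.Graded
import Vale.Agent.Lib.P034.helper3.BdFinal
import Vale.Agent.Lib.P034.helper3.Contain

/-!
# P034: the two expectation thresholds of graph containment, three results in one statement

One theorem whose three conjuncts are, verbatim, the statements of the hand-ins
`PseudoforestContainment`, `BoundedDegreeContainment` and `AllGraphsRegimes`. No new mathematics.

Let `H` be a graph with at least one edge on `n` labelled vertices, `X` the set of the pairs of
distinct vertices and `F` the family of all `W ⊆ X` such that the graph with edge set `W` contains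
a copy of `H`. Then `F` is a nonempty increasing family not containing the empty set, and

1. if every vertex set `S` spans at most `|S|` edges of `H`, then every `p ≥ 0` at which `F` is
   fractionally small has `F` `(p / 12000000000)`-small, and `q_f(F) ≤ 12000000000 * q(F)`;
2. if every vertex of `H` has at most `D` neighbours, then every `p ≥ 0` at which `F` is
   fractionally small has `F` `(p / (162 * D))`-small, and `q_f(F) ≤ 162 * D * q(F)`;
3. for every `H`: for every integer `k ≥ 1` and real `M ≥ 1` with `log n ≤ M ^ k` and every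
   `t ≥ 0` with `3 log n ≤ n * t ^ k`: `q_f(F) ≤ 480 M ^ 2 * max (q(F)) t`, in particular
   `q_f(F) ≤ 480 M ^ 2 * q(F)` as soon as `3 log n ≤ n * q(F) ^ k`; if `log n ≤ 2 ^ k`,
   `9 (log n) ^ 2 ≤ n` and some vertex set `A` contains both ends of each edge of a set of at
   least `2 k (|A| + 1)` edges of `H`, then `q_f(F) ≤ 1920 q(F)`; and
   `q_f(F) ≤ 10 ^ 123 * exp (118 * n * q_f(F)) * q(F)`.
-/

namespace Vale.Agent.Results.P034.ContainmentCollected

open Vale.Agent.Lib.P034

theorem result :
    (∀ (n : ℕ) (H : SimpleGraph (Fin n)), H ≠ ⊥ →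
      (∀ S : Finset (Fin n), {e ∈ H.edgeSet | ∀ v ∈ e, v ∈ S}.ncard ≤ S.card) →
      ∀ F : Finset (Finset {e : Sym2 (Fin n) // ¬ e.IsDiag}),
        (∀ W : Finset {e : Sym2 (Fin n) // ¬ e.IsDiag}, W ∈ F ↔
          SimpleGraph.IsContained H (SimpleGraph.fromEdgeSet
            (Subtype.val '' (W : Set {e : Sym2 (Fin n) // ¬ e.IsDiag})))) →
        (F.Nonempty ∧ ∅ ∉ F ∧ IsIncreasing F) ∧
        (∀ p : ℝ, 0 ≤ p → IsFracSmall F p → IsSmall F (p / 12000000000)) ∧
        fracExpThreshold F ≤ 12000000000 * expThreshold F) ∧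
    (∀ (n D : ℕ) (H : SimpleGraph (Fin n)), H ≠ ⊥ →
      (∀ v : Fin n, (H.neighborSet v).ncard ≤ D) →
      ∀ F : Finset (Finset {e : Sym2 (Fin n) // ¬ e.IsDiag}),
        (∀ W : Finset {e : Sym2 (Fin n) // ¬ e.IsDiag}, W ∈ F ↔
          SimpleGraph.IsContained H (SimpleGraph.fromEdgeSet
            (Subtype.val '' (W : Set {e : Sym2 (Fin n) // ¬ e.IsDiag})))) →
        (F.Nonempty ∧ ∅ ∉ F ∧ IsIncreasing F) ∧
        (∀ p : ℝ, 0 ≤ p → IsFracSmall F p → IsSmall F (p / (162 * D))) ∧
        fracExpThreshold F ≤ 162 * D * expThreshold F) ∧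
    (∀ (n : ℕ) (H : SimpleGraph (Fin n)), H ≠ ⊥ →
      ∀ F : Finset (Finset {e : Sym2 (Fin n) // ¬ e.IsDiag}),
        (∀ W : Finset {e : Sym2 (Fin n) // ¬ e.IsDiag}, W ∈ F ↔
          SimpleGraph.IsContained H (SimpleGraph.fromEdgeSet
            (Subtype.val '' (W : Set {e : Sym2 (Fin n) // ¬ e.IsDiag})))) →
        (F.Nonempty ∧ ∅ ∉ F ∧ IsIncreasing F) ∧
        (∀ (k : ℕ) (M : ℝ), 1 ≤ k → 1 ≤ M → Real.log n ≤ M ^ k →
          (∀ t : ℝ, 0 ≤ t → 3 * Real.log n ≤ n * t ^ k →
            fracExpThreshold F ≤ 480 * M ^ 2 * max (expThreshold F) t) ∧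
          (3 * Real.log n ≤ n * expThreshold F ^ k →
            fracExpThreshold F ≤ 480 * M ^ 2 * expThreshold F)) ∧
        (∀ k : ℕ, 1 ≤ k → Real.log n ≤ 2 ^ k → 9 * Real.log n ^ 2 ≤ n →
          ∀ (A : Finset (Fin n)) (D : Finset (Sym2 (Fin n))),
            (∀ e ∈ D, e ∈ H.edgeSet ∧ ∀ v ∈ e, v ∈ A) → 2 * k * (A.card + 1) ≤ D.card →
            fracExpThreshold F ≤ 1920 * expThreshold F) ∧
        fracExpThreshold F ≤
          10 ^ 123 * Real.exp (118 * n * fracExpThreshold F) * expThreshold F) := by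
  refine ⟨?_, ?_, ?_⟩
  · intro n H hne hH F hF
    exact ⟨H3C.contain_family H hne F hF, fun p hp h => H3C.contain_small H hH F hF p hp h,
      H3C.contain_thresholds H hH F hF⟩
  · intro n D H hne hdeg F hF
    exact ⟨H3C.contain_family H hne F hF,
      fun p hp h => H3B.bounded_small H hne D hdeg F hF p hp h,
      H3B.bounded_thresholds H hne D hdeg F hF⟩
  · intro n H hne F hF
    have hn := H3R.two_le_of_ne_bot H hne
    refine ⟨H3C.contain_family H hne F hF, ?_, ?_, H3R.allgraphs_thresholds hn H F hF⟩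
    · intro k M hk1 hM hk
      refine ⟨fun t ht htk => H3G.graded_thresholds hn H F hF k hk1 M hM hk t ht htk, ?_⟩
      intro hq
      have h0 : 0 ≤ expThreshold F := Real.sSup_nonneg (fun p hp => hp.1)
      have h := H3G.graded_thresholds hn H F hF k hk1 M hM hk (expThreshold F) h0 hq
      rwa [max_self] at h
    · intro k hk1 hk hnlog A D hD hcard
      exact H3G.dense_thresholds hn H F hF k hk1 hk hnlog A D hD hcard

end Vale.Agent.Results.P034.ContainmentCollected
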